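import Vale.Agent.P269ZV.V
import Vale.Agent.P269AX.Exp

/-!
# P269ZV / Br : the compact Virasoro operators agree with those of `P269AV`
-/

noncomputable section

namespace Vale.Agent.P269ZV

open Finset P269A P269AV

variable {ι : Type} [Fintype ι] [DecidableEq ι] (Y : Coh ι)

omit [Fintype ι] [DecidableEq ι] in
theorem mul_eq (V : Frob ι) (F G : P269AV.Ser ι) (w : List (ℕ × ι)) :
    mul (fun x : ℕ × ι => V.p x.2 + V.q x.2) F G w = V.mul F G w := by
  induction w generalizing F G with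
  | nil => rfl
  | cons x w ih =>
    have h1 := ih (fun u => F (x :: u)) G
    have h2 := ih (fun u => (-1) ^ (V.deg [x] * V.deg u) * F u) (fun u => G (x :: u))
    rw [Frob.mul, ← h1, ← h2]
    simp only [mul, Frob.deg, List.map_cons, List.map_nil, List.sum_cons, List.sum_nil, add_zero]

theorem mul_eq' (F G : P269AV.Ser ι) :
    mul (fun x : ℕ × ι => Y.deg x.2) F G = (frob Y).mul F G :=
  funext fun w => mul_eq (frob Y) F G w

omit [Fintype ι] in
theorem ind_nil : (ind [] : P269AV.Ser ι) = cst 1 := by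
  funext w
  by_cases h : w = [] <;> simp [ind, cst, h]

omit [Fintype ι] in
theorem ind_crd (m : ℕ) (a : ι) : (ind [(m, a)] : P269AV.Ser ι) = crd m a := by
  funext w
  by_cases h : w = [(m, a)] <;> simp [ind, crd, h]

theorem pow_eq (F : P269AV.Ser ι) (n : ℕ) :
    (mul (fun x : ℕ × ι => Y.deg x.2) F)^[n] (ind []) = (frob Y).pow F n := by
  induction n with
  | zero => exact ind_nil
  | succ n ih => rw [Function.iterate_succ_apply', ih, mul_eq', Frob.pow]

theorem tt_eq (m : ℕ) (a : ι) :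
    (fun u => ind [(m, a)] u - if m = 1 ∧ a = Y.o then ind [] u else 0 : P269AV.Ser ι) =
      (frob Y).tt m a := by
  funext u
  rw [ind_crd, ind_nil, Frob.tt]
  change _ = crd m a u - (if m = 1 ∧ a = Y.o then (cst 1 : P269AV.Ser ι) else 0) u
  split_ifs <;> rfl

theorem L_eq (n : ℕ) (Z : P269AV.Ser ι) (w : List (ℕ × ι)) :
    L Y (fun j c => PowerSeries.C (HahnSeries.single j c)) n Z w = (frob Y).L n Z w := by
  have hd : ∀ (m : ℤ) (a : ι) (F : P269AV.Ser ι), der m a F = P269AV.der m a F := fun _ _ _ => rfl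
  have hb : br = P269AV.br := rfl
  have hρ : (Y.str fun a => (2⁻¹ : ℂ) ^ 4 - (Y.μ a * 2⁻¹) ^ 2) = (frob Y).ρ := by
    refine Finset.sum_congr rfl fun a _ => ?_
    change _ = (-1) ^ Y.deg a * (1 / 16 - Y.μ a ^ 2 / 4)
    ring
  unfold L Frob.L Frob.Lm
  simp only [tt_eq]
  simp only [mul_eq', ind_crd, hd, hb, hρ, Pi.add_apply, Finset.sum_apply, Pi.smul_apply,
    smul_eq_mul, div_eq_mul_inv, one_mul]
  rfl

omit [Fintype ι] [DecidableEq ι] in
theorem cf_pot (N : ℕ → ℕ → List (ℕ × ι) → ℂ) (d : ℕ) (w : List (ℕ × ι)) :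
    (∀ j < -1, cf d j (pot N w) = 0) ∧ ∀ g : ℕ, cf d (g - 1) (pot N w) = N g d w.reverse := by
  refine ⟨fun j hj => ?_, fun g => ?_⟩
  · rw [P269AX.cf_pot, if_pos (by omega)]
  · rw [P269AX.cf_pot, if_neg (by omega)]
    simp

/-- The conclusion of the final theorem. -/
theorem vir (c : ℤ) (N : ℕ → ℕ → List (ℕ × ι) → ℂ) (h : VIR (frob Y) c N) :
    let e := fun x : ℕ × ι => Y.deg x.2
    let cf := fun d j (x : PowerSeries (LaurentSeries ℂ)) => (PowerSeries.coeff d x).coeff j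
    let L := L Y fun j c => PowerSeries.C (HahnSeries.single j c)
    ∃ F Z, (∀ d w, (∀ j < -1, cf d j (F w) = 0) ∧ ∀ g : ℕ, cf d (g - 1) (F w) = N g d w.reverse) ∧
      (∀ d j, IsExp e (cf d j) F Z) ∧
      (∀ n, ∃ ζ, (∀ w, L n Z w = mul e ζ Z w) ∧ ∀ d w, (∀ j < -1, cf d j (ζ w) = 0) ∧
        ∀ g : ℕ, d = 0 ∨ (3 - Y.r : ℤ) * (g - 1) + c * d < 0 → cf d (g - 1) (ζ w) = 0) ∧
      (c < 3 - Y.r → ∀ n w, L n Z w = 0) := by
  obtain ⟨Z, hZ, h1, h2⟩ := h
  refine ⟨pot N, Z, fun d w => cf_pot N d w, fun d j w => ?_, fun n => ?_, fun hc n w => ?_⟩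
  · simp only [pow_eq]
    exact hZ w d j
  · obtain ⟨ζ, e1, e2, e3⟩ := h1 n
    refine ⟨ζ, fun w => ?_, fun d w => ⟨e2 d w, fun g hg => e3 g d w hg⟩⟩
    rw [mul_eq', ← e1]
    exact L_eq Y n Z w
  · have := L_eq Y n Z w
    rw [h2 hc n] at this
    exact this

end Vale.Agent.P269ZV
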