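import Vale.Agent.P269ZV.Br
import Vale.Agent.P269AV.Main
import Vale.Agent.P269S.CB
import Vale.Agent.P269S.HB
import Vale.Agent.P269E.D

/-!
# P269ZV / Fin : the final statement from the four blocks
-/

open scoped Manifold ContDiff

namespace Vale.Agent.P269ZV

open P269A P269S P269E

/-- block D for the compact definitions -/
def BD : Prop := ∀ (r c N : ℕ) (M ι : Type) [TopologicalSpace M] [ChartedSpace (Cm r) M]
  [Fintype ι] [DecidableEq ι] (X : CI c N M) (φ : ι → Fm r M) (Y : Coh ι) I G, X.Ok φ Y →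
  GW X φ Y I G → ∀ g e, 0 < e →
    Van Y X.idx (G g e) g e ∧ ∀ l, G g e l ≠ 0 → Even ((l.map fun i => Y.deg i.2).sum)

theorem fin (hH : P269Z.BH) (hC : P269Z.BC) (hD : BD) (r c N : ℕ) (M ι : Type)
    [TopologicalSpace M] [ChartedSpace (Cm r) M] [IsManifold 𝓘(ℂ, Cm r) ω M] [T2Space M]
    [CompactSpace M] [ConnectedSpace M] [Fintype ι] [DecidableEq ι] (X : CI c N M)
    (φ : ι → Fm r M) (Y : Coh ι) (I : ℕ → List ℕ → MvPolynomial ℕ ℂ → ℂ)
    (G : ℕ → ℕ → List (ℕ × ι) → ℂ) (hX : X.Ok φ Y) (hI : Hodge I) (hG : GW X φ Y I G)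
    (hr : 3 ≤ r) :
    let e := fun x : ℕ × ι => Y.deg x.2
    let cf := fun d j (x : PowerSeries (LaurentSeries ℂ)) => (PowerSeries.coeff d x).coeff j
    let L := L Y fun j c => PowerSeries.C (HahnSeries.single j c)
    ∃ F Z, (∀ d w, (∀ j < -1, cf d j (F w) = 0) ∧ ∀ g : ℕ, cf d (g - 1) (F w) = G g d w.reverse) ∧
      (∀ d j, IsExp e (cf d j) F Z) ∧
      (∀ n, ∃ ζ, (∀ w, L n Z w = mul e ζ Z w) ∧ ∀ d w, (∀ j < -1, cf d j (ζ w) = 0) ∧
        ∀ g : ℕ, d = 0 ∨ (3 - r : ℤ) * (g - 1) + X.idx * d < 0 → cf d (g - 1) (ζ w) = 0) ∧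
      (X.idx < 3 - r → ∀ n w, L n Z w = 0) := by
  have e : Y.r = r := hX.dim.2
  have h := vir Y X.idx G (P269AV.ba ι Y I G X.idx (bh_s hH hX hr) (hodge_ok hC hI) (e ▸ hr)
    (fun g => (hG g).1) (fun g d hd => (hD r c N M ι X φ Y I G hX hG g d hd).1)
    fun g d l hd => (hD r c N M ι X φ Y I G hX hG g d hd).2 l)
  rw [e] at h
  exact h

end Vale.Agent.P269ZV
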