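import Vale.Agent.P269A.Defs

/-!
# P269: formal functions on a superspace and the Virasoro operators (definitions only)

A formal function `F` of variables `x` of degree `e x`, with coefficients in `Λ`, is given by its
Taylor coefficients `F [x_1, .., x_n] = (∂_{x_n} ⋯ ∂_{x_1} F) (0)`, with left derivatives.
-/

noncomputable section

namespace Vale.Agent.P269ZV

open Finset P269A

variable {α ι Λ : Type} [CommRing Λ]

/-- The product, given by the Leibniz rule with the Koszul sign. -/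
def mul (e : α → ℕ) (F G : List α → Λ) (w : List α) : Λ :=
  w.rec (motive := fun _ => (List α → Λ) → (List α → Λ) → Λ) (fun F G => F [] * G [])
    (fun x _ m F G => m (fun u => F (x :: u)) G +
      m (fun u => (-1) ^ (e x * (u.map e).sum) * F u) fun u => G (x :: u)) F G

/-- `ind []` is the constant `1` and `ind [x]` is the coordinate `x`. -/
def ind [DecidableEq α] (v w : List α) : Λ := if w = v then 1 else 0

/-- `Z = ∑ F ^ n / n!`, each coefficient `c` being a finite sum. -/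
def IsExp [DecidableEq α] (e : α → ℕ) (c : Λ → ℂ) (F Z : List α → Λ) : Prop :=
  ∀ w, ∃ N : ℕ, (∀ n ≥ N, c ((mul e F)^[n] (ind []) w) = 0) ∧
    c (Z w) = ∑ n ∈ range N, c ((mul e F)^[n] (ind []) w) / n.factorial

/-- The number `[x]^k_i`, the coefficient of `s ^ i` in `(s + x) (s + x + 1) ⋯ (s + x + k)`,
for `n = k + 1`. -/
def br (n i : ℕ) (x : ℂ) : ℂ := (∏ l ∈ range n, (Polynomial.X + Polynomial.C (x + l))).coeff i

/-- The derivative `∂_{a,m}` in the variable `t^a_m = (m, a)`, zero for `m < 0`. -/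
def der (m : ℤ) (a : ι) (F : List (ℕ × ι) → Λ) (w : List (ℕ × ι)) : Λ :=
  if 0 ≤ m then F ((m.toNat, a) :: w) else 0

/-- The Virasoro operator `L_k`, `k = n - 1`, where `ħ j c` is the element `c ħ ^ j` of `Λ`. -/
def L [Fintype ι] [DecidableEq ι] (X : Coh ι) (ħ : ℤ → ℂ → Λ) (n : ℕ) (Z : List (ℕ × ι) → Λ)
    (w : List (ℕ × ι)) : Λ :=
  let e := fun x : ℕ × ι => X.deg x.2
  let R := X.R
  let h : ℂ := 2⁻¹
  (∑ᶠ m : ℕ, ∑ i ∈ range (n + 1), ∑ a, ∑ b,
    (ħ 0 (br n i (X.μ a + m + h) * (R ^ i) a b) *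
      mul e (fun u => ind [(m, a)] u - if m = 1 ∧ a = X.o then ind [] u else 0)
        (der (m + n - 1 - i) b Z) w +
    ħ 1 (∑ c, (-1) ^ (m + 1) * h * br n i (X.μ c - m - h) * X.η⁻¹ a c * (R ^ i) c b) *
      der m a (der (n - 2 - m - i) b Z) w)) +
  (∑ a, ∑ b, ħ (-1) ((R ^ n * X.η) a b * h) * mul e (ind [(0, b)]) (mul e (ind [(0, a)]) Z) w) +
    ħ 0 (if n = 1 then X.str fun a => h ^ 4 - (X.μ a * h) ^ 2 else 0) * Z w

end Vale.Agent.P269ZV
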